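import Mathlib

/-!
P087 Gauss module: a product of Gaussians is dominated by Lebesgue measure.
-/

open MeasureTheory ProbabilityTheory
open scoped NNReal ENNReal

namespace Vale.Agent.P087.Gauss

lemma gaussian_le_volume (μ : ℝ) {v : ℝ≥0} (hv : v ≠ 0) (s : Set ℝ) :
    gaussianReal μ v s ≤ ENNReal.ofReal (Real.sqrt (2 * Real.pi * v))⁻¹ * volume s := by
  rw [gaussianReal_apply _ hv]
  refine (lintegral_mono fun x => ?_).trans_eq (setLIntegral_const _ _)
  refine ENNReal.ofReal_le_ofReal ?_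
  rw [gaussianPDFReal]
  refine mul_le_of_le_one_right (by positivity) (Real.exp_le_one_iff.2 ?_)
  exact div_nonpos_of_nonpos_of_nonneg (by nlinarith [sq_nonneg (x - μ)]) (by positivity)

lemma pi_le {ι : Type*} [Fintype ι] (μ ν : ι → Measure ℝ) [∀ i, SigmaFinite (μ i)]
    [∀ i, SigmaFinite (ν i)] (c : ι → ℝ≥0∞) (h0 : ∀ i, c i ≠ 0) (ht : ∀ i, c i ≠ ∞)
    (h : ∀ i s, μ i s ≤ c i * ν i s) (s : Set (ι → ℝ)) :
    Measure.pi μ s ≤ (∏ i, c i) * Measure.pi ν s := by
  have hC0 : ∏ i, c i ≠ 0 := Finset.prod_ne_zero_iff.2 fun i _ => h0 i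
  have hCt : ∏ i, c i ≠ ∞ := ENNReal.prod_ne_top fun i _ => ht i
  set C := ∏ i, c i with hC
  have hle : C⁻¹ • (Measure.pi μ).toOuterMeasure ≤ OuterMeasure.pi fun i => (ν i).toOuterMeasure := by
    refine OuterMeasure.le_pi.2 fun t _ => ?_
    simp only [smul_apply, smul_eq_mul, Measure.coe_toOuterMeasure, Measure.pi_pi]
    calc C⁻¹ * ∏ i, μ i (t i) ≤ C⁻¹ * ∏ i, c i * ν i (t i) := by
          gcongr with i; exact h i (t i)
      _ = _ := by
          rw [Finset.prod_mul_distrib, ← hC, ← mul_assoc, ENNReal.inv_mul_cancel hC0 hCt, one_mul]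
  have h1 : C⁻¹ * Measure.pi μ s ≤ Measure.pi ν s :=
    le_trans (hle s) (by rw [Measure.pi]; exact le_toMeasure_apply _ _ _)
  calc Measure.pi μ s = C * (C⁻¹ * Measure.pi μ s) := by
        rw [← mul_assoc, ENNReal.mul_inv_cancel hC0 hCt, one_mul]
    _ ≤ _ := by gcongr

end Vale.Agent.P087.Gauss
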