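import Vale.Agent.P087.Defs

/-!
P087 Gauss module: coordinates of self-adjoint matrices and the completeness identities.
-/

open Matrix
open scoped ComplexConjugate

namespace Vale.Agent.P087.Gauss

/-- The coefficient `(1 + I) / 2`. -/
noncomputable def cU : ℂ := ⟨1 / 2, 1 / 2⟩

lemma cU_sq : cU * cU + conj cU * conj cU = 0 := by
  apply Complex.ext <;> norm_num [cU]

lemma cU_norm : cU * conj cU + conj cU * cU = 1 := by
  apply Complex.ext <;> norm_num [cU]

variable {n : Type*} [Fintype n] [DecidableEq n]

/-- The orthonormal basis of self-adjoint matrices. -/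
noncomputable def U (a : n × n) : Matrix n n ℂ := fun p q =>
  (if (p, q) = a then cU else 0) + (if (q, p) = a then conj cU else 0)

/-- The inverse of `herm` on self-adjoint matrices. -/
def crd (A : Matrix n n ℂ) : n × n → ℝ := fun a => (A a.1 a.2).re + (A a.1 a.2).im

variable {k : ℕ}

lemma herm_apply (x : Fin k × Fin k → ℝ) (p q : Fin k) :
    herm x p q = cU * (x (p, q) : ℂ) + conj cU * (x (q, p) : ℂ) := by
  apply Complex.ext <;> simp [herm, cU] <;> ring

lemma herm_isHermitian (x : Fin k × Fin k → ℝ) : (herm x).IsHermitian := by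
  ext p q
  simp [herm_apply, Matrix.conjTranspose_apply, add_comm]

lemma herm_crd {A : Matrix (Fin k) (Fin k) ℂ} (hA : A.IsHermitian) : herm (crd A) = A := by
  ext p q
  have h : A q p = conj (A p q) := (hA.apply q p).symm
  simp only [herm_apply, crd, h]
  apply Complex.ext <;> simp [cU] <;> ring

lemma herm_add_smul (c : ℝ) (x y : Fin k × Fin k → ℝ) :
    herm (fun a => x a + c * y a) = herm x + (c : ℂ) • herm y := by
  ext p q
  simp [herm_apply]; ring

lemma complete (p q r s : n) :
    ∑ a, U a p q * U a r s = if p = s ∧ q = r then 1 else 0 := by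
  simp only [U, add_mul, mul_add, ite_mul, mul_ite, mul_zero, zero_mul, Finset.sum_add_distrib,
    Finset.sum_ite_eq, Finset.mem_univ, if_true, Prod.mk.injEq]
  have h1 := cU_sq
  have h2 := cU_norm
  split_ifs <;> grind

variable {R : Type*} [CommRing R] (f : ℂ →+* R)

omit [DecidableEq n] in
lemma trace_mul_sum (M N : Matrix n n R) : trace (M * N) = ∑ z : n × n, M z.1 z.2 * N z.2 z.1 := by
  simp [trace, Matrix.mul_apply, Fintype.sum_prod_type]

lemma trace_pair (P Q : Matrix n n R) :
    ∑ a, trace ((U a).map f * P) * trace ((U a).map f * Q) = trace (P * Q) := by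
  simp only [trace_mul_sum, Finset.sum_mul_sum, Matrix.map_apply]
  rw [Finset.sum_comm]
  refine (Finset.sum_congr rfl fun z _ => Finset.sum_comm).trans ?_
  have e : ∀ z w : n × n, ∑ a, f (U a z.1 z.2) * P z.2 z.1 * (f (U a w.1 w.2) * Q w.2 w.1)
      = (if w = (z.2, z.1) then P z.2 z.1 * Q w.2 w.1 else 0) := by
    intro z w
    rw [Finset.sum_congr rfl fun a _ => show _ = f (U a z.1 z.2 * U a w.1 w.2) *
      (P z.2 z.1 * Q w.2 w.1) from by rw [map_mul]; ring, ← Finset.sum_mul, ← map_sum, complete]
    obtain ⟨w1, w2⟩ := w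
    by_cases h : z.1 = w2 ∧ z.2 = w1
    · simp [h.1, h.2]
    · have : ¬ ((w1, w2) = (z.2, z.1)) := fun he => by simp at he; exact h ⟨he.2.symm, he.1.symm⟩
      simp [h, this]
  simp only [e, Finset.sum_ite_eq', Finset.mem_univ, if_true]
  simp [Fintype.sum_prod_type]
  rw [Finset.sum_comm]

lemma sandwich (P : Matrix n n R) :
    ∑ a, (U a).map f * P * (U a).map f = trace P • (1 : Matrix n n R) := by
  ext p s
  simp only [Matrix.sum_apply, Matrix.mul_apply, Matrix.map_apply, Finset.sum_mul,
    Matrix.smul_apply, smul_eq_mul]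
  rw [Finset.sum_comm]
  have e : ∀ r, ∑ a, ∑ q, f (U a p q) * P q r * f (U a r s)
      = ∑ q, (if p = s ∧ q = r then P q r else 0) := by
    intro r
    rw [Finset.sum_comm]
    refine Finset.sum_congr rfl fun q _ => ?_
    rw [Finset.sum_congr rfl fun a _ => show _ = f (U a p q * U a r s) * P q r from by
      rw [map_mul]; ring, ← Finset.sum_mul, ← map_sum, complete]
    split_ifs <;> simp
  simp only [e]
  by_cases h : p = s
  · subst h; simp [trace]
  · simp [h]

lemma trace_sandwich (P Q : Matrix n n R) :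
    ∑ a, trace ((U a).map f * P * (U a).map f * Q) = trace P * trace Q := by
  rw [← trace_sum, ← Finset.sum_mul, sandwich, Matrix.smul_mul, one_mul, trace_smul, smul_eq_mul]

end Vale.Agent.P087.Gauss
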