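import Vale.Agent.P087.Gauss.Moment
import Vale.Agent.P087.Gauss.Coord

/-!
P087 Gauss module: a Gaussian self-adjoint matrix has operator norm at most `16` with high
probability (nets on the sphere).
-/

open MeasureTheory ProbabilityTheory Matrix
open scoped NNReal ENNReal ComplexConjugate InnerProductSpace

namespace Vale.Agent.P087.Gauss

variable {k : ℕ}

lemma finrank_real : Module.finrank ℝ (EuclideanSpace ℂ (Fin k)) = 2 * k := by
  rw [← Module.finrank_mul_finrank ℝ ℂ (EuclideanSpace ℂ (Fin k)), Complex.finrank_real_complex,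
    finrank_euclideanSpace_fin]

/-- A small net on the unit sphere. -/
lemma exists_net (k : ℕ) : ∃ S : Finset (EuclideanSpace ℂ (Fin k)), S.card ≤ 5 ^ (2 * k) ∧
    (∀ v ∈ S, ‖v‖ = 1) ∧ ∀ v : EuclideanSpace ℂ (Fin k), ‖v‖ = 1 → ∃ w ∈ S, ‖v - w‖ < 1 / 2 := by
  classical
  let p : Finset (EuclideanSpace ℂ (Fin k)) → Prop := fun S =>
    (∀ v ∈ S, ‖v‖ = 1) ∧ ∀ v ∈ S, ∀ w ∈ S, v ≠ w → 1 / 2 ≤ ‖v - w‖
  have bound : ∀ S, p S → S.card ≤ 5 ^ (2 * k) := by
    intro S hS
    have hinj : Function.Injective fun v : EuclideanSpace ℂ (Fin k) => (2 : ℝ) • v :=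
      smul_right_injective _ two_ne_zero
    have : FiniteDimensional ℝ (EuclideanSpace ℂ (Fin k)) :=
      Module.Finite.trans ℂ (EuclideanSpace ℂ (Fin k))
    have h := Besicovitch.card_le_of_separated (S.image fun v => (2 : ℝ) • v) ?_ ?_
    · rwa [Finset.card_image_of_injective _ hinj, finrank_real] at h
    · intro c hc
      obtain ⟨v, hv, rfl⟩ := Finset.mem_image.1 hc
      simp [norm_smul, hS.1 v hv]
    · intro c hc d hd hcd
      obtain ⟨v, hv, rfl⟩ := Finset.mem_image.1 hc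
      obtain ⟨w, hw, rfl⟩ := Finset.mem_image.1 hd
      have := hS.2 v hv w hw fun h => hcd (by rw [h])
      rw [← smul_sub, norm_smul]; norm_num; linarith
  obtain ⟨S, hS, hmax⟩ : ∃ S, p S ∧ ∀ S', p S' → S'.card ≤ S.card := by
    let n := Nat.findGreatest (fun n => ∃ S, p S ∧ S.card = n) (5 ^ (2 * k))
    have hn : ∃ S, p S ∧ S.card = n := by
      refine Nat.findGreatest_spec (P := fun n => ∃ S, p S ∧ S.card = n) (Nat.zero_le _) ?_
      exact ⟨∅, ⟨by simp, by simp⟩, rfl⟩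
    obtain ⟨S, hS, hc⟩ := hn
    exact ⟨S, hS, fun S' hS' => hc ▸ Nat.le_findGreatest (bound S' hS') ⟨S', hS', rfl⟩⟩
  refine ⟨S, bound S hS, hS.1, fun v hv => ?_⟩
  by_contra hne
  push Not at hne
  have hvS : v ∉ S := fun h => by have := hne v h; norm_num at this
  have := hmax (insert v S) ⟨by simpa [hv] using hS.1, by
    intro a ha b hb hab
    rcases Finset.mem_insert.1 ha with rfl | ha <;> rcases Finset.mem_insert.1 hb with rfl | hb
    · exact absurd rfl hab
    · exact hne b hb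
    · rw [norm_sub_rev]; exact hne a ‹_›
    · exact hS.2 a ha b hb hab⟩
  rw [Finset.card_insert_of_notMem hvS] at this
  omega

lemma opNorm_le_of_net {E : Type*} [NormedAddCommGroup E] [InnerProductSpace ℂ E]
    (A : E →L[ℂ] E) (S : Finset E)
    (hnet : ∀ v : E, ‖v‖ = 1 → ∃ w ∈ S, ‖v - w‖ < 1 / 2) {t : ℝ} (ht : 0 ≤ t)
    (h : ∀ v ∈ S, ∀ w ∈ S, (⟪w, A v⟫_ℂ).re ≤ t) : ‖A‖ ≤ 4 * t := by
  have hn : ∀ n ∈ S, ‖A n‖ ≤ 2 * t := by
    intro n hn
    rcases eq_or_ne (A n) 0 with h0 | h0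
    · rw [h0, norm_zero]; linarith
    set y := A n with hy
    set w := ((‖y‖ : ℂ)⁻¹) • y with hw
    have hy0 : ‖y‖ ≠ 0 := norm_ne_zero_iff.2 h0
    have hw1 : ‖w‖ = 1 := by
      rw [hw, norm_smul, norm_inv, Complex.norm_real, norm_norm, inv_mul_cancel₀ hy0]
    have hwy : (⟪w, y⟫_ℂ).re = ‖y‖ := by
      rw [hw, inner_smul_left, inner_self_eq_norm_sq_to_K, map_inv₀, Complex.conj_ofReal]
      simp only [RCLike.ofReal_eq_complex_ofReal, ← Complex.ofReal_inv, ← Complex.ofReal_pow,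
        ← Complex.ofReal_mul, Complex.ofReal_re]
      field_simp
    obtain ⟨w', hw', hd⟩ := hnet w hw1
    have hsub : (⟪w - w', y⟫_ℂ).re ≤ 1 / 2 * ‖y‖ := by
      refine (Complex.re_le_norm _).trans ((norm_inner_le_norm _ _).trans ?_)
      exact mul_le_mul_of_nonneg_right hd.le (norm_nonneg _)
    rw [inner_sub_left, Complex.sub_re] at hsub
    have := h n hn w' hw'
    linarith
  have key : ‖A‖ ≤ 2 * t + ‖A‖ / 2 := by
    refine A.opNorm_le_of_unit_norm (by positivity) fun v hv => ?_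
    obtain ⟨n, hnS, hd⟩ := hnet v hv
    have e : A v = A n + A (v - n) := by rw [map_sub]; abel
    rw [e]
    refine (norm_add_le _ _).trans (add_le_add (hn n hnS) ?_)
    refine (A.le_opNorm _).trans ?_
    nlinarith [norm_nonneg A, norm_nonneg (v - n)]
  linarith

lemma herm_sum (x : Fin k × Fin k → ℝ) : herm x = ∑ p, (x p : ℂ) • U p := by
  ext r s
  simp [herm_apply, U, Matrix.sum_apply, Finset.sum_add_distrib, mul_comm]

/-- The coefficient of the coordinate `p` in `re ⟪w, herm x v⟫`. -/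
noncomputable def coef (v w : EuclideanSpace ℂ (Fin k)) (p : Fin k × Fin k) : ℝ :=
  (⟪w, Matrix.toEuclideanCLM (𝕜 := ℂ) (U p) v⟫_ℂ).re

lemma re_inner_herm (v w : EuclideanSpace ℂ (Fin k)) (x : Fin k × Fin k → ℝ) :
    (⟪w, Matrix.toEuclideanCLM (𝕜 := ℂ) (herm x) v⟫_ℂ).re = ∑ p, x p * coef v w p := by
  rw [herm_sum, map_sum, _root_.sum_apply, inner_sum, Complex.re_sum]
  refine Finset.sum_congr rfl fun p _ => ?_
  rw [map_smul, _root_.smul_apply, inner_smul_right, Complex.re_ofReal_mul]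
  rfl

lemma inner_U (v w : EuclideanSpace ℂ (Fin k)) (M : Matrix (Fin k) (Fin k) ℂ) :
    ⟪w, Matrix.toEuclideanCLM (𝕜 := ℂ) M v⟫_ℂ
      = trace (M * Matrix.vecMulVec v.ofLp (star w.ofLp)) := by
  rw [show v = WithLp.toLp 2 v.ofLp from rfl, toEuclideanCLM_toLp]
  simp only [EuclideanSpace.inner_eq_star_dotProduct, trace, Matrix.mul_apply,
    Matrix.vecMulVec_apply, dotProduct, Matrix.mulVec, Pi.star_apply, Matrix.diag_apply,
    Finset.sum_mul, mul_assoc]

lemma sum_coef_sq {v w : EuclideanSpace ℂ (Fin k)} (hv : ‖v‖ = 1) (hw : ‖w‖ = 1) :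
    ∑ p, coef v w p ^ 2 ≤ 1 := by
  have hsum : ∑ p, ((‖⟪w, Matrix.toEuclideanCLM (𝕜 := ℂ) (U p) v⟫_ℂ‖ ^ 2 : ℝ) : ℂ) = 1 := by
    have e : ∀ p, ((‖⟪w, Matrix.toEuclideanCLM (𝕜 := ℂ) (U p) v⟫_ℂ‖ ^ 2 : ℝ) : ℂ)
        = trace ((U p).map (RingHom.id ℂ) * Matrix.vecMulVec v.ofLp (star w.ofLp))
          * trace ((U p).map (RingHom.id ℂ) * Matrix.vecMulVec w.ofLp (star v.ofLp)) := by
      intro p
      have hU : star (U p) = U p := by
        ext r s
        simp [U, Matrix.star_apply, apply_ite (starRingEnd ℂ), add_comm]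
      rw [inner_U, show (U p).map (RingHom.id ℂ) = U p from rfl]
      have hc : starRingEnd ℂ (trace (U p * Matrix.vecMulVec v.ofLp (star w.ofLp)))
          = trace (U p * Matrix.vecMulVec w.ofLp (star v.ofLp)) := by
        rw [starRingEnd_apply, ← trace_conjTranspose, conjTranspose_mul, conjTranspose_vecMulVec,
          star_star, trace_mul_comm, ← Matrix.star_eq_conjTranspose, hU]
      rw [← hc, Complex.mul_conj']
      push_cast
      ring
    simp only [e, trace_pair]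
    rw [Matrix.vecMulVec_mul_vecMulVec, trace_vecMulVec, dotProduct_smul, smul_eq_mul]
    have hv' : star v.ofLp ⬝ᵥ v.ofLp = 1 := by
      have := inner_self_eq_norm_sq_to_K (𝕜 := ℂ) v
      rw [hv, EuclideanSpace.inner_eq_star_dotProduct, dotProduct_comm] at this
      simpa using this
    have hw' : star w.ofLp ⬝ᵥ w.ofLp = 1 := by
      have := inner_self_eq_norm_sq_to_K (𝕜 := ℂ) w
      rw [hw, EuclideanSpace.inner_eq_star_dotProduct, dotProduct_comm] at this
      simpa using this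
    rw [hw', dotProduct_comm, hv', one_mul]
  have h1 : ∑ p, ‖⟪w, Matrix.toEuclideanCLM (𝕜 := ℂ) (U p) v⟫_ℂ‖ ^ 2 = 1 := by
    exact_mod_cast hsum
  rw [← h1]
  refine Finset.sum_le_sum fun p _ => ?_
  rw [coef, ← sq_abs]
  exact pow_le_pow_left₀ (abs_nonneg _) (Complex.abs_re_le_norm _) 2

variable {ι : Type*} [Fintype ι]

/-- Chernoff bound for a linear form of a Gaussian vector. -/
lemma linear_tail (v : ℝ≥0) (c : ι → ℝ) (hc : ∑ a, c a ^ 2 ≤ 1) {t s : ℝ} (hs : 0 ≤ s) :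
    (Gv ι v).real {x | t ≤ ∑ a, x a * c a} ≤ Real.exp (-s * t + v * s ^ 2 / 2) := by
  have e : ∀ x : ι → ℝ, Real.exp (s * ∑ a, x a * c a) = ∏ a, Real.exp (s * c a * x a) := by
    intro x
    rw [← Real.exp_sum, Finset.mul_sum]
    exact congrArg _ (Finset.sum_congr rfl fun a _ => by ring)
  have hint : Integrable (fun x : ι → ℝ => Real.exp (s * ∑ a, x a * c a)) (Gv ι v) := by
    simp only [e]
    exact Integrable.fintype_prod (f := fun a y => Real.exp (s * c a * y))
      fun a => integrable_exp_mul_gaussianReal _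
  refine (measure_ge_le_exp_mul_mgf t hs hint).trans ?_
  have hm : mgf (fun x : ι → ℝ => ∑ a, x a * c a) (Gv ι v) s
      = Real.exp (v * s ^ 2 / 2 * ∑ a, c a ^ 2) := by
    simp only [mgf, e, Gv]
    rw [integral_fintype_prod_eq_prod (fun a y => Real.exp (s * c a * y)), Finset.mul_sum,
      Real.exp_sum]
    refine Finset.prod_congr rfl fun a _ => ?_
    have := congrFun (mgf_id_gaussianReal (μ := 0) (v := v)) (s * c a)
    simp only [mgf, id] at this
    rw [this]
    congr 1; ring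
  rw [hm, ← Real.exp_add]
  refine Real.exp_le_exp.2 ?_
  have h0 : (0 : ℝ) ≤ v * s ^ 2 / 2 := by positivity
  nlinarith

variable {I : Type} [Fintype I] [DecidableEq I]

/-- Large operator norm is unlikely. -/
theorem opNorm_tail (hk : k ≠ 0) (i : I) :
    (Gv (I × Fin k × Fin k) (k : ℝ≥0)⁻¹).real {x | 16 < opNorm (herm fun p => x (i, p))}
      ≤ (625 / Real.exp 8) ^ k := by
  classical
  obtain ⟨S, hS, h1, hnet⟩ := exists_net k
  set μ := Gv (I × Fin k × Fin k) (k : ℝ≥0)⁻¹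
  let c : EuclideanSpace ℂ (Fin k) × EuclideanSpace ℂ (Fin k) → (I × Fin k × Fin k → ℝ) :=
    fun vw q => if q.1 = i then coef vw.1 vw.2 q.2 else 0
  have key : ∀ (vw : EuclideanSpace ℂ (Fin k) × EuclideanSpace ℂ (Fin k)) (x : I × Fin k × Fin k → ℝ),
      ∑ q, x q * c vw q = (⟪vw.2, Matrix.toEuclideanCLM (𝕜 := ℂ) (herm fun p => x (i, p)) vw.1⟫_ℂ).re := by
    intro vw x
    rw [re_inner_herm, Fintype.sum_prod_type (α₁ := I)]
    simp [c, mul_ite]
  have hsub : {x | 16 < opNorm (herm fun p => x (i, p))} ⊆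
      ⋃ vw ∈ S ×ˢ S, {x : I × Fin k × Fin k → ℝ | 4 ≤ ∑ q, x q * c vw q} := by
    intro x hx
    by_contra hne
    simp only [Set.mem_iUnion, Set.mem_ofPred_eq, not_exists, not_le] at hne
    have := opNorm_le_of_net (Matrix.toEuclideanCLM (𝕜 := ℂ) (herm fun p => x (i, p))) S hnet
      (t := 4) (by norm_num) fun v hv w hw => by
        have := hne (v, w) (Finset.mem_product.2 ⟨hv, hw⟩)
        rw [key] at this
        exact this.le
    simp only [Set.mem_ofPred_eq, opNorm_eq] at hx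
    linarith
  refine (measureReal_mono hsub (measure_ne_top _ _)).trans ((measureReal_biUnion_finset_le _ _).trans ?_)
  have hb : ∀ vw ∈ S ×ˢ S, μ.real {x | 4 ≤ ∑ q, x q * c vw q} ≤ (Real.exp 8)⁻¹ ^ k := by
    intro vw hvw
    have hc : ∑ q, c vw q ^ 2 ≤ 1 := by
      rw [Fintype.sum_prod_type (α₁ := I)]
      simpa [c, ite_pow] using sum_coef_sq (h1 _ (Finset.mem_product.1 hvw).1)
        (h1 _ (Finset.mem_product.1 hvw).2)
    refine (linear_tail _ _ hc (t := 4) (s := 4 * k) (by positivity)).trans (le_of_eq ?_)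
    rw [← Real.exp_neg, ← Real.exp_nat_mul]
    congr 1
    push_cast
    field_simp
    ring
  refine (Finset.sum_le_sum hb).trans ?_
  rw [Finset.sum_const, nsmul_eq_mul, Finset.card_product]
  have : ((S.card * S.card : ℕ) : ℝ) ≤ 625 ^ k := by
    calc ((S.card * S.card : ℕ) : ℝ) ≤ ((5 ^ (2 * k) * 5 ^ (2 * k) : ℕ) : ℝ) := by
          exact_mod_cast Nat.mul_le_mul hS hS
      _ = 625 ^ k := by
          push_cast
          rw [← pow_add, ← two_mul, ← mul_assoc, pow_mul]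
          norm_num
  calc _ ≤ (625 : ℝ) ^ k * (Real.exp 8)⁻¹ ^ k := by gcongr
    _ = _ := by rw [← mul_pow, div_eq_mul_inv]

lemma ratio_lt_one : (625 : ℝ) / Real.exp 8 < 1 := by
  rw [div_lt_one (Real.exp_pos _)]
  have h : Real.exp 8 = Real.exp 1 ^ 8 := by rw [← Real.exp_nat_mul]; norm_num
  rw [h]
  have := Real.exp_one_gt_d9
  calc (625 : ℝ) < 2.7 ^ 8 := by norm_num
    _ ≤ _ := by gcongr; linarith

end Vale.Agent.P087.Gauss
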