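import Vale.Agent.P087.Gauss.Poly

/-!
P087 Gauss module: large dimension limit of expected products of traces.
-/

open Filter MvPolynomial
open scoped Topology

namespace Vale.Agent.P087.Gauss

variable {I : Type} [DecidableEq I]

lemma cuts_length {α : Type} : ∀ (u : List α) (c), c ∈ cuts u →
    c.1.length + c.2.2.length + 1 = u.length := by
  intro u
  induction u with
  | nil => simp [cuts]
  | cons a u ih =>
    intro c h
    simp only [cuts, List.mem_cons, List.mem_map] at h
    rcases h with rfl | ⟨c', h, rfl⟩
    · simp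
    · have := ih _ h
      simp only [List.length_cons]; omega

lemma tAux_eq (m : List I → ℂ) (σ : I → ℝ) : ∀ (f : ℕ) (v u : List I), u.length ≤ f →
    tAux m σ f v u = tMom m σ v u := by
  intro f
  induction f using Nat.strong_induction_on with
  | h f ih =>
    intro v u hu
    match f, u with
    | 0, [] => rfl
    | f + 1, [] => simp [tMom, tAux]
    | f + 1, a :: u =>
      have hu' : u.length ≤ f := by simpa using hu
      show tAux m σ (f + 1) v (a :: u) = tAux m σ (u.length + 1) v (a :: u)
      simp only [tAux]
      rcases hu'.lt_or_eq with hlt | heq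
      · rw [ih f (by omega) _ u hu', ih u.length (by omega) _ u le_rfl]
        congr 3
        refine List.map_congr_left fun c hc => ?_
        have := cuts_length u c hc
        rw [ih f (by omega) _ c.1 (by omega), ih f (by omega) _ c.2.2 (by omega),
          ih u.length (by omega) _ c.1 (by omega), ih u.length (by omega) _ c.2.2 (by omega)]
      · rw [heq]

lemma tMom_nil (m : List I → ℂ) (σ : I → ℝ) (v : List I) : tMom m σ v [] = m v := rfl

lemma tMom_cons (m : List I → ℂ) (σ : I → ℝ) (v : List I) (a : I) (u : List I) :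
    tMom m σ v (a :: u) = tMom m σ (v ++ [a]) u + ((σ a : ℂ) ^ 2) * ((cuts u).map fun c =>
      if c.2.1 = a then tMom m σ [] c.1 * tMom m σ v c.2.2 else 0).sum := by
  show tAux m σ (u.length + 1) v (a :: u) = _
  simp only [tAux]
  rw [tAux_eq m σ _ _ u le_rfl]
  congr 3
  refine List.map_congr_left fun c hc => ?_
  have := cuts_length u c hc
  rw [tAux_eq m σ _ _ c.1 (by omega), tAux_eq m σ _ _ c.2.2 (by omega)]

omit [DecidableEq I] in
lemma tendsto_list_sum {α : Type*} {β : Type*} (l : List α) (f : α → β → ℂ) (a : α → ℂ)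
    {F : Filter β} (h : ∀ x ∈ l, Tendsto (f x) F (𝓝 (a x))) :
    Tendsto (fun j => (l.map fun x => f x j).sum) F (𝓝 (l.map a).sum) := by
  induction l with
  | nil => simpa using tendsto_const_nhds
  | cons x l ih =>
    simp only [List.map_cons, List.sum_cons]
    exact (h x (List.mem_cons_self ..)).add (ih fun y hy => h y (List.mem_cons_of_mem _ hy))

variable [Fintype I]
variable {k : ℕ} (B : I → Matrix (Fin k) (Fin k) ℂ) (σ : I → ℝ)

omit [DecidableEq I] in
lemma Ev_perm {ws ws' : List (List (I ⊕ I))} (h : ws.Perm ws') : Ev B σ ws = Ev B σ ws' := by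
  rw [Ev, Ev, TT, TT, (h.map (T B σ)).prod_eq]

omit [DecidableEq I] in
lemma Ev_rotate (u v : List (I ⊕ I)) (ws : List (List (I ⊕ I))) :
    Ev B σ ((u ++ v) :: ws) = Ev B σ ((v ++ u) :: ws) := by
  rw [Ev, Ev, TT_cons, TT_cons, T_rotate]

omit [DecidableEq I] in
lemma Ev_rotate_snd (a u v : List (I ⊕ I)) (ws : List (List (I ⊕ I))) :
    Ev B σ (a :: (u ++ v) :: ws) = Ev B σ (a :: (v ++ u) :: ws) := by
  rw [Ev, Ev, TT_cons, TT_cons, TT_cons, TT_cons, T_rotate B σ u v]

omit [DecidableEq I] [Fintype I] in
lemma W_inl (v : List I) :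
    W B σ (v.map Sum.inl) = ((v.map B).prod).map (C : ℂ →+* Pol I k) := by
  induction v with
  | nil =>
    simp only [List.map_nil, W_nil, List.prod_nil]
    rw [Matrix.map_one C (map_zero C) (map_one C)]
  | cons a v ih =>
    simp only [List.map_cons, W_cons, List.prod_cons, ih, Matrix.map_mul]
    rfl

omit [DecidableEq I] [Fintype I] in
lemma T_inl (v : List I) : T B σ (v.map Sum.inl) = C (trk (v.map B).prod) := by
  simp [T, W_inl, trk, Matrix.trace, map_sum]

omit [DecidableEq I] in
lemma Ev_det (vs : List (List I)) :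
    Ev B σ (vs.map fun v => v.map Sum.inl) = (vs.map fun v => trk (v.map B).prod).prod := by
  have : TT B σ (vs.map fun v => v.map Sum.inl) = C (vs.map fun v => trk (v.map B).prod).prod := by
    simp [TT, List.map_map, Function.comp_def, T_inl, map_list_prod]
  rw [Ev, this, Ex_const]

omit [DecidableEq I] [Fintype I] in
lemma exists_det : ∀ ws : List (List (I ⊕ I)), tdeg ws = 0 →
    ∃ vs : List (List I), ws = vs.map fun v => v.map Sum.inl := by
  intro ws
  induction ws with
  | nil => exact fun _ => ⟨[], rfl⟩
  | cons w ws ih =>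
    intro h
    simp only [tdeg, List.map_cons, List.sum_cons] at h
    obtain ⟨vs, rfl⟩ := ih (by simp only [tdeg]; omega)
    have hw : deg w = 0 := by omega
    suffices ∃ v : List I, w = v.map Sum.inl by
      obtain ⟨v, rfl⟩ := this
      exact ⟨v :: vs, rfl⟩
    clear h ih
    induction w with
    | nil => exact ⟨[], rfl⟩
    | cons l w ihw =>
      rw [deg_cons] at hw
      obtain ⟨v, rfl⟩ := ihw (by omega)
      rcases l with a | a
      · exact ⟨a :: v, rfl⟩
      · simp [deg_inr] at hw

omit [DecidableEq I] [Fintype I] in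
lemma exists_inr : ∀ w : List (I ⊕ I), 0 < deg w → ∃ u i v, w = u ++ Sum.inr i :: v := by
  intro w hw
  have : ∃ l ∈ w, l.isRight = true := by
    simpa [deg, List.countP_pos_iff] using hw
  obtain ⟨l, hl, hr⟩ := this
  obtain ⟨u, v, rfl⟩ := List.append_of_mem hl
  rcases l with a | a
  · simp at hr
  · exact ⟨u, a, v, rfl⟩

omit [DecidableEq I] [Fintype I] in
lemma tdeg_perm {ws ws' : List (List (I ⊕ I))} (h : ws.Perm ws') : tdeg ws = tdeg ws' :=
  (h.map deg).sum_eq

section seq

variable {d : ℕ → ℕ} (Bs : ∀ j, I → Matrix (Fin (d j)) (Fin (d j)) ℂ) (m : List I → ℂ)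
  (hd : ∀ j, d j ≠ 0) (hdt : Tendsto d atTop atTop)
  (hm : ∀ v : List I, Tendsto (fun j => trk (v.map (Bs j)).prod) atTop (𝓝 (m v)))

include hdt in
omit [DecidableEq I] [Fintype I] in
lemma tendsto_sq_inv : Tendsto (fun j => ((d j : ℂ) ^ 2)⁻¹) atTop (𝓝 0) := by
  have := (tendsto_inv_atTop_nhds_zero_nat (𝕜 := ℂ)).comp hdt
  simpa [inv_pow, Function.comp_def] using this.pow 2

include hd hdt hm

/-- Every expected product of traces has a limit. -/
theorem exists_lim : ∀ ws : List (List (I ⊕ I)),
    ∃ L, Tendsto (fun j => Ev (Bs j) σ ws) atTop (𝓝 L) := by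
  intro ws
  induction hn : tdeg ws using Nat.strong_induction_on generalizing ws with
  | h n ih =>
    subst hn
    rcases Nat.eq_zero_or_pos (tdeg ws) with h0 | hpos
    · obtain ⟨vs, rfl⟩ := exists_det ws h0
      simp only [Ev_det]
      exact ⟨_, tendsto_list_prod vs fun v _ => hm v⟩
    · have : ∃ w ∈ ws, 0 < deg w := by
        by_contra hne
        push Not at hne
        have : tdeg ws = 0 := List.sum_eq_zero (by
          intro x hx
          obtain ⟨w, hw, rfl⟩ := List.mem_map.1 hx
          exact Nat.le_zero.1 (hne w hw))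
        omega
      obtain ⟨w, hw, hwd⟩ := this
      obtain ⟨pre, post, rfl⟩ := List.append_of_mem hw
      obtain ⟨u, i, v, rfl⟩ := exists_inr w hwd
      have hp := List.perm_middle (a := u ++ Sum.inr i :: v) (l₁ := pre) (l₂ := post)
      rw [tdeg_perm hp] at ih
      simp only [fun j => Ev_perm (Bs j) σ hp, fun j => Ev_rotate (Bs j) σ u (Sum.inr i :: v),
        List.cons_append, Ev_step _ σ (hd _)]
      have hdeg : tdeg ((u ++ Sum.inr i :: v) :: (pre ++ post))
          = deg (v ++ u) + 1 + tdeg (pre ++ post) := by
        simp [tdeg, deg_append, deg_inr]; omega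
      rw [hdeg] at ih
      obtain ⟨L1, h1⟩ := ih _ (by
        show tdeg ((Sum.inl i :: (v ++ u)) :: (pre ++ post)) < _
        simp [tdeg, deg]) _ rfl
      have h2 : ∀ uv ∈ splits i (v ++ u), ∃ L,
          Tendsto (fun j => Ev (Bs j) σ (uv.1 :: uv.2 :: (pre ++ post))) atTop (𝓝 L) := by
        intro uv huv
        have := deg_of_mem_splits i _ uv huv
        exact ih _ (by simp [tdeg] at *; omega) _ rfl
      have h3 : ∀ r ∈ dsplit i (v ++ u) (pre ++ post), ∃ L,
          Tendsto (fun j => Ev (Bs j) σ r) atTop (𝓝 L) := by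
        intro r hr
        have := deg_of_mem_dsplit i _ _ r hr
        exact ih _ (by omega) _ rfl
      choose! a2 ha2 using h2
      choose! a3 ha3 using h3
      exact ⟨_, h1.add (((tendsto_list_sum _ _ a2 ha2).add
        ((tendsto_sq_inv hdt).mul (tendsto_list_sum _ _ a3 ha3))).const_mul _)⟩

/-- A special word `B^v A^u`. -/
def spec (vu : List I × List I) : List (I ⊕ I) := vu.1.map Sum.inl ++ vu.2.map Sum.inr

/-- Products of traces of special words converge to products of `tMom`. -/
theorem tendsto_spec : ∀ l : List (List I × List I),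
    Tendsto (fun j => Ev (Bs j) σ (l.map spec)) atTop
      (𝓝 (l.map fun vu => tMom m σ vu.1 vu.2).prod) := by
  intro l
  induction hn : (l.map fun vu => vu.2.length).sum using Nat.strong_induction_on
    generalizing l with
  | h n ih =>
    subst hn
    by_cases h0 : ∀ vu ∈ l, vu.2 = []
    · have e : l.map spec = (l.map Prod.fst).map fun v => v.map Sum.inl := by
        rw [List.map_map]
        exact List.map_congr_left fun vu hvu => by simp [spec, h0 vu hvu]
      have e' : (l.map fun vu => tMom m σ vu.1 vu.2) = (l.map Prod.fst).map m := by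
        rw [List.map_map]
        exact List.map_congr_left fun vu hvu => by simp [h0 vu hvu, tMom_nil]
      simp only [e, e', Ev_det]
      exact tendsto_list_prod _ fun v _ => hm v
    · push Not at h0
      obtain ⟨⟨v, u⟩, hvu, hne⟩ := h0
      obtain ⟨pre, post, rfl⟩ := List.append_of_mem hvu
      match u, hne with
      | a :: u, _ =>
      have hp := List.perm_middle (a := (v, a :: u)) (l₁ := pre) (l₂ := post)
      rw [(hp.map _).prod_eq]
      rw [(hp.map _).sum_eq] at ih
      simp only [List.map_cons, List.prod_cons, List.sum_cons, List.length_cons] at ih ⊢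
      set rest := pre ++ post with hrest
      have hlhs : ∀ j, Ev (Bs j) σ ((pre ++ (v, a :: u) :: post).map spec)
          = Ev (Bs j) σ ((Sum.inr a :: (u.map Sum.inr ++ v.map Sum.inl)) :: rest.map spec) := by
        intro j
        rw [Ev_perm (Bs j) σ (hp.map spec), List.map_cons]
        exact Ev_rotate (Bs j) σ (v.map Sum.inl) _ _
      simp only [hlhs, Ev_step _ σ (hd _)]
      rw [tMom_cons, add_mul, mul_assoc ((σ a : ℂ) ^ 2)]
      refine Tendsto.add ?_ (Tendsto.const_mul _ ?_)
      · have h1 := ih _ (by simp) ((v ++ [a], u) :: rest) rfl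
        simp only [List.map_cons, List.prod_cons] at h1
        refine h1.congr fun j => ?_
        have : spec (v ++ [a], u) = v.map Sum.inl ++ (Sum.inl a :: u.map Sum.inr) := by
          simp [spec]
        rw [this, Ev_rotate]
        simp
      · rw [← List.sum_map_mul_right, ← add_zero (List.sum _)]
        refine Tendsto.add ?_ ?_
        · simp only [sum_splits_special]
          refine tendsto_list_sum _ _ _ fun c hc => ?_
          by_cases hca : c.2.1 = a
          · simp only [hca, if_true]
            have := cuts_length u c hc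
            have h1 := ih _ (by simp; omega) (([], c.1) :: (v, c.2.2) :: rest) rfl
            simp only [List.map_cons, List.prod_cons, ← mul_assoc] at h1
            refine h1.congr fun j => ?_
            rw [show spec (([] : List I), c.1) = c.1.map Sum.inr from rfl]
            exact Ev_rotate_snd (Bs j) σ _ _ _ _
          · simp only [hca, if_false, zero_mul]
            exact tendsto_const_nhds
        · obtain ⟨L, hL⟩ : ∃ L, Tendsto (fun j => ((dsplit a (u.map Sum.inr ++ v.map Sum.inl)
              (rest.map spec)).map (Ev (Bs j) σ)).sum) atTop (𝓝 L) := by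
            choose L hL using exists_lim σ Bs m hd hdt hm
            exact ⟨_, tendsto_list_sum _ _ L fun r _ => hL r⟩
          simpa using (tendsto_sq_inv hdt).mul hL

end seq

end Vale.Agent.P087.Gauss
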