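import Mathlib

/-!
P087 Gauss module: polynomial moments of a centred product Gaussian measure and integration by
parts.
-/

open MeasureTheory ProbabilityTheory
open scoped NNReal

namespace Vale.Agent.P087.Gauss

/-- Moments of the centred Gaussian. -/
noncomputable def mom (v : ℝ≥0) (n : ℕ) : ℝ := ∫ x, x ^ n ∂gaussianReal 0 v

lemma integrable_pow_gauss (v : ℝ≥0) (n : ℕ) :
    Integrable (fun x : ℝ => x ^ n) (gaussianReal 0 v) := by
  rcases Nat.eq_zero_or_pos n with h | h
  · subst h; simp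
  · have h1 := (memLp_id_gaussianReal (μ := 0) (v := v) (n : ℝ≥0)).integrable_norm_pow' (p := n)
    refine h1.mono (by fun_prop) (Filter.Eventually.of_forall fun x => ?_)
    simp

lemma mom_succ (v : ℝ≥0) (n : ℕ) : mom v (n + 1) = v * n * mom v (n - 1) := by
  by_cases hv : v = 0
  · subst hv
    simp [mom]
  have hv' : (0 : ℝ) < (v : ℝ) := by exact_mod_cast pos_iff_ne_zero.2 hv
  set p := gaussianPDFReal 0 v with hp
  have hi : ∀ m : ℕ, Integrable (fun x : ℝ => p x * x ^ m) := by
    intro m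
    have := integrable_pow_gauss v m
    rw [gaussianReal_of_var_ne_zero _ hv, integrable_withDensity_iff_integrable_smul'
      (measurable_gaussianPDF _ _) (ae_of_all _ fun _ => gaussianPDF_lt_top)] at this
    simpa [smul_eq_mul, toReal_gaussianPDF] using this
  have hd : ∀ x, HasDerivAt p (-(x / v) * p x) x := by
    intro x
    have e : p = fun y : ℝ => (Real.sqrt (2 * Real.pi * v))⁻¹ * Real.exp (-(y ^ 2) / (2 * v)) := by
      funext y; simp [hp, gaussianPDFReal]
    have h2 : HasDerivAt (fun y : ℝ => -(y ^ 2) / (2 * (v : ℝ))) (-(x / v)) x := by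
      have := ((hasDerivAt_pow 2 x).neg).div_const (2 * (v : ℝ))
      refine this.congr_deriv ?_
      field_simp
      ring
    rw [e]
    refine (h2.exp.const_mul _).congr_deriv ?_
    ring
  have key := integral_mul_deriv_eq_deriv_mul_of_integrable (A := ℝ)
    (u := fun x : ℝ => x ^ n) (u' := fun x => (n : ℝ) * x ^ (n - 1))
    (v := p) (v' := fun x => -(x / v) * p x)
    (fun x _ => hasDerivAt_pow n x) (fun x _ => hd x) ?_ ?_ ?_
  · simp only [mom, integral_gaussianReal_eq_integral_smul hv, smul_eq_mul, ← hp]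
    have e1 : (fun x : ℝ => x ^ n * (-(x / v) * p x)) = fun x => -(v : ℝ)⁻¹ * (p x * x ^ (n + 1)) := by
      funext x; field_simp; ring
    have e2 : (fun x : ℝ => (n : ℝ) * x ^ (n - 1) * p x) = fun x => (n : ℝ) * (p x * x ^ (n - 1)) := by
      funext x; ring
    rw [e1, e2, integral_const_mul, integral_const_mul] at key
    field_simp at key
    linarith
  · have : (fun x : ℝ => x ^ n) * (fun x => -(x / v) * p x) = fun x => -(v : ℝ)⁻¹ * (p x * x ^ (n + 1)) := by
      funext x; simp only [Pi.mul_apply]; field_simp; ring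
    rw [this]; exact (hi _).const_mul _
  · have : (fun x : ℝ => (n : ℝ) * x ^ (n - 1)) * p = fun x => (n : ℝ) * (p x * x ^ (n - 1)) := by
      funext x; simp only [Pi.mul_apply]; ring
    rw [this]; exact (hi _).const_mul _
  · have : (fun x : ℝ => x ^ n) * p = fun x => p x * x ^ n := by
      funext x; simp only [Pi.mul_apply]; ring
    rw [this]; exact hi _

variable {ι : Type*} [Fintype ι]

/-- Product of centred Gaussians. -/
noncomputable def Gv (ι : Type*) [Fintype ι] (v : ℝ≥0) : Measure (ι → ℝ) :=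
  Measure.pi fun _ => gaussianReal 0 v

instance (v : ℝ≥0) : IsProbabilityMeasure (Gv ι v) := by unfold Gv; infer_instance

/-- Value of a complex polynomial at a real point. -/
noncomputable def pev (p : MvPolynomial ι ℂ) (x : ι → ℝ) : ℂ :=
  MvPolynomial.eval (fun a => (x a : ℂ)) p

/-- Expectation of a polynomial. -/
noncomputable def Ex (v : ℝ≥0) (p : MvPolynomial ι ℂ) : ℂ := ∫ x, pev p x ∂Gv ι v

lemma pev_monomial (s : ι →₀ ℕ) (c : ℂ) (x : ι → ℝ) :
    pev (MvPolynomial.monomial s c) x = c * ∏ a, ((x a ^ s a : ℝ) : ℂ) := by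
  simp [pev, MvPolynomial.eval_monomial, Finsupp.prod_fintype]

lemma integrable_pev (v : ℝ≥0) (p : MvPolynomial ι ℂ) : Integrable (pev p) (Gv ι v) := by
  induction p using MvPolynomial.induction_on' with
  | monomial s c =>
    simp only [funext (pev_monomial s c)]
    exact (Integrable.fintype_prod (f := fun a (y : ℝ) => ((y ^ s a : ℝ) : ℂ))
      fun a => (integrable_pow_gauss v (s a)).ofReal).const_mul c
  | add p q hp hq =>
    have : pev (p + q) = pev p + pev q := by funext x; simp [pev]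
    rw [this]; exact hp.add hq

lemma Ex_add (v : ℝ≥0) (p q : MvPolynomial ι ℂ) : Ex v (p + q) = Ex v p + Ex v q := by
  simp only [Ex, ← integral_add (integrable_pev v p) (integrable_pev v q)]
  simp [pev]

lemma Ex_zero (v : ℝ≥0) : Ex v (0 : MvPolynomial ι ℂ) = 0 := by simp [Ex, pev]

lemma Ex_C_mul (v : ℝ≥0) (c : ℂ) (p : MvPolynomial ι ℂ) :
    Ex v (MvPolynomial.C c * p) = c * Ex v p := by
  simp only [Ex, pev, map_mul, MvPolynomial.eval_C, integral_const_mul]

lemma Ex_const (v : ℝ≥0) (c : ℂ) : Ex v (MvPolynomial.C c : MvPolynomial ι ℂ) = c := by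
  simp [Ex, pev]

lemma Ex_sum {β : Type*} (v : ℝ≥0) (s : Finset β) (f : β → MvPolynomial ι ℂ) :
    Ex v (∑ b ∈ s, f b) = ∑ b ∈ s, Ex v (f b) :=
  map_sum (AddMonoidHom.mk' (Ex v) (Ex_add v) : MvPolynomial ι ℂ →+ ℂ) f s

lemma Ex_list_sum (v : ℝ≥0) (l : List (MvPolynomial ι ℂ)) :
    Ex v l.sum = (l.map (Ex v)).sum :=
  map_list_sum (AddMonoidHom.mk' (Ex v) (Ex_add v) : MvPolynomial ι ℂ →+ ℂ) l

lemma Ex_monomial (v : ℝ≥0) (s : ι →₀ ℕ) (c : ℂ) :
    Ex v (MvPolynomial.monomial s c) = c * ∏ a, (mom v (s a) : ℂ) := by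
  simp only [Ex, pev_monomial, integral_const_mul, Gv]
  rw [integral_fintype_prod_eq_prod (fun a (y : ℝ) => ((y ^ s a : ℝ) : ℂ))]
  congr 1
  refine Finset.prod_congr rfl fun a _ => ?_
  exact integral_ofReal

/-- Gaussian integration by parts. -/
theorem Ex_X_mul (v : ℝ≥0) (a : ι) (p : MvPolynomial ι ℂ) :
    Ex v (MvPolynomial.X a * p) = (v : ℂ) * Ex v (MvPolynomial.pderiv a p) := by
  classical
  induction p using MvPolynomial.induction_on' with
  | monomial s c =>
    rw [MvPolynomial.pderiv_monomial, MvPolynomial.X, MvPolynomial.monomial_mul, one_mul,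
      Ex_monomial, Ex_monomial]
    rw [Fintype.prod_eq_mul_prod_compl a, Fintype.prod_eq_mul_prod_compl a]
    have e1 : ∀ b ∈ ({a}ᶜ : Finset ι), (mom v ((Finsupp.single a (1 : ℕ) + s : ι →₀ ℕ) b) : ℂ) = mom v (s b) := by
      intro b hb
      simp [(Ne.symm (by simpa using hb) : a ≠ b)]
    have e2 : ∀ b ∈ ({a}ᶜ : Finset ι), (mom v ((s - Finsupp.single a (1 : ℕ) : ι →₀ ℕ) b) : ℂ) = mom v (s b) := by
      intro b hb
      simp [(Ne.symm (by simpa using hb) : a ≠ b)]
    rw [Finset.prod_congr rfl e1, Finset.prod_congr rfl e2]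
    simp only [Finsupp.add_apply, Finsupp.single_eq_same, Finsupp.tsub_apply]
    rw [add_comm 1 (s a), mom_succ]
    push_cast
    ring
  | add p q hp hq => rw [mul_add, map_add, Ex_add, Ex_add, hp, hq, mul_add]

end Vale.Agent.P087.Gauss
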