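import Vale.Agent.P087.Interfaces

/-!
P087 Gauss module: combinatorics of mixed words (deterministic letters `inl`, perturbed
letters `inr`).
-/

namespace Vale.Agent.P087.Gauss

variable {ι κ : Type}

/-- Number of `inr` letters. -/
def deg (w : List (ι ⊕ κ)) : ℕ := w.countP fun l => l.isRight

/-- All ways to write `w = u ++ inr i :: v`. -/
def splits [DecidableEq ι] [DecidableEq κ] (i : κ) :
    List (ι ⊕ κ) → List (List (ι ⊕ κ) × List (ι ⊕ κ))
  | [] => []
  | l :: w => (if l = Sum.inr i then [([], w)] else []) ++
      (splits i w).map fun uv => (l :: uv.1, uv.2)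

/-- Insert `P` at an occurrence of `inr i` in one of the words. -/
def dsplit [DecidableEq ι] [DecidableEq κ] (i : κ) (P : List (ι ⊕ κ)) :
    List (List (ι ⊕ κ)) → List (List (List (ι ⊕ κ)))
  | [] => []
  | w :: ws => ((splits i w).map fun uv => (P ++ uv.2 ++ uv.1) :: ws) ++
      (dsplit i P ws).map fun r => w :: r

lemma deg_append (u v : List (ι ⊕ κ)) : deg (u ++ v) = deg u + deg v := by
  simp [deg, List.countP_append]

lemma deg_inr (i : κ) (w : List (ι ⊕ κ)) : deg (Sum.inr i :: w) = deg w + 1 := by
  simp [deg, List.countP_cons]

lemma deg_cons (l : ι ⊕ κ) (w : List (ι ⊕ κ)) : deg (l :: w) = deg [l] + deg w :=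
  deg_append [l] w

section
variable [DecidableEq ι] [DecidableEq κ]

lemma deg_of_mem_splits (i : κ) : ∀ (w : List (ι ⊕ κ)) (uv), uv ∈ splits i w →
    deg uv.1 + deg uv.2 + 1 = deg w := by
  intro w
  induction w with
  | nil => simp [splits]
  | cons l w ih =>
    intro uv h
    simp only [splits, List.mem_append, List.mem_map] at h
    rcases h with h | ⟨uv', h, rfl⟩
    · split_ifs at h with hl
      · simp only [List.mem_singleton] at h
        subst h; subst hl
        simp [deg, List.countP_cons]
      · simp at h
    · have := ih _ h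
      dsimp only
      rw [deg_cons l uv'.1, deg_cons l w]; omega

/-- Total degree. -/
def tdeg (ws : List (List (ι ⊕ κ))) : ℕ := (ws.map deg).sum

lemma deg_of_mem_dsplit (i : κ) (P : List (ι ⊕ κ)) : ∀ (ws : List (List (ι ⊕ κ))) (r),
    r ∈ dsplit i P ws → tdeg r + 1 = tdeg ws + deg P := by
  intro ws
  induction ws with
  | nil => simp [dsplit]
  | cons w ws ih =>
    intro r h
    simp only [dsplit, List.mem_append, List.mem_map] at h
    rcases h with ⟨uv, h, rfl⟩ | ⟨r', h, rfl⟩
    · have := deg_of_mem_splits i w uv h
      simp only [tdeg, List.map_cons, List.sum_cons, deg_append]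
      omega
    · have := ih _ h
      simp only [tdeg, List.map_cons, List.sum_cons] at *
      omega

end

variable [DecidableEq ι]

/-- Splits of a special word are the cuts of its upper part. -/
lemma sum_splits_special {M : Type*} [AddCommMonoid M] (i : ι) (v : List ι) :
    ∀ (u : List ι) (g : List (ι ⊕ ι) × List (ι ⊕ ι) → M),
    ((splits i (u.map Sum.inr ++ v.map Sum.inl)).map g).sum
      = ((cuts u).map fun c => if c.2.1 = i then
          g (c.1.map Sum.inr, c.2.2.map Sum.inr ++ v.map Sum.inl) else 0).sum := by
  intro u
  induction u with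
  | nil =>
    intro g
    induction v generalizing g with
    | nil => simp [splits, cuts]
    | cons a v ih =>
      have := ih (fun uv => g (Sum.inl a :: uv.1, uv.2))
      simpa [splits, cuts, List.map_map, Function.comp_def] using this
  | cons a u ih =>
    intro g
    simp only [List.map_cons, List.cons_append, splits, cuts, List.map_append, List.sum_append,
      List.map_map, Function.comp_def, ih, List.sum_cons, Sum.inr.injEq]
    split_ifs <;> simp [*]

end Vale.Agent.P087.Gauss
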