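import Vale.Agent.P087.Gauss.Moment
import Vale.Agent.P087.Gauss.Coord
import Vale.Agent.P087.Gauss.Words

/-!
P087 Gauss module: integration by parts for products of traces of words in `B i` and
`B i + σ i G i`, with `G i` independent GUE matrices.
-/

open MvPolynomial Matrix
open scoped ComplexConjugate NNReal

namespace Vale.Agent.P087.Gauss

variable {I : Type} {k : ℕ}

/-- Polynomials in the coordinates of a tuple. -/
abbrev Pol (I : Type) (k : ℕ) : Type := MvPolynomial (I × Fin k × Fin k) ℂ

/-- The generic self-adjoint matrix. -/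
noncomputable def Gmat (i : I) : Matrix (Fin k) (Fin k) (Pol I k) :=
  Matrix.of fun p q => C cU * X (i, p, q) + C (conj cU) * X (i, q, p)

/-- Letters: `inl i` is `B i`, `inr i` is `B i + σ i G i`. -/
noncomputable def Lmat (B : I → Matrix (Fin k) (Fin k) ℂ) (σ : I → ℝ) :
    I ⊕ I → Matrix (Fin k) (Fin k) (Pol I k)
  | Sum.inl i => (B i).map C
  | Sum.inr i => (B i).map C + (C (σ i : ℂ) : Pol I k) • Gmat i

/-- Value of a word. -/
noncomputable def W (B : I → Matrix (Fin k) (Fin k) ℂ) (σ : I → ℝ) (w : List (I ⊕ I)) :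
    Matrix (Fin k) (Fin k) (Pol I k) :=
  (w.map (Lmat B σ)).prod

/-- Normalised trace of a word. -/
noncomputable def T (B : I → Matrix (Fin k) (Fin k) ℂ) (σ : I → ℝ) (w : List (I ⊕ I)) : Pol I k :=
  C ((k : ℂ)⁻¹) * trace (W B σ w)

/-- Product of normalised traces. -/
noncomputable def TT (B : I → Matrix (Fin k) (Fin k) ℂ) (σ : I → ℝ)
    (ws : List (List (I ⊕ I))) : Pol I k :=
  (ws.map (T B σ)).prod

variable (B : I → Matrix (Fin k) (Fin k) ℂ) (σ : I → ℝ)

lemma W_nil : W B σ [] = 1 := by simp [W]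

lemma W_cons (l : I ⊕ I) (w : List (I ⊕ I)) : W B σ (l :: w) = Lmat B σ l * W B σ w := by
  simp [W]

lemma W_append (u v : List (I ⊕ I)) : W B σ (u ++ v) = W B σ u * W B σ v := by
  simp [W, List.prod_append]

lemma T_rotate (u v : List (I ⊕ I)) : T B σ (u ++ v) = T B σ (v ++ u) := by
  rw [T, T, W_append, W_append, trace_mul_comm]

/-- Entrywise derivative. -/
noncomputable def D (a : I × Fin k × Fin k) (M : Matrix (Fin k) (Fin k) (Pol I k)) :
    Matrix (Fin k) (Fin k) (Pol I k) :=
  M.map (pderiv a)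

lemma D_mul (a : I × Fin k × Fin k) (M N : Matrix (Fin k) (Fin k) (Pol I k)) :
    D a (M * N) = D a M * N + M * D a N := by
  refine Matrix.ext fun p q => ?_
  simp only [D, Matrix.map_apply, Matrix.mul_apply, Matrix.add_apply, map_sum, pderiv_mul,
    Finset.sum_add_distrib]

lemma pderiv_trace (a : I × Fin k × Fin k) (M : Matrix (Fin k) (Fin k) (Pol I k)) :
    pderiv a (trace M) = trace (D a M) := by
  simp [trace, D, map_sum]

/-- The constant basis matrix. -/
noncomputable def Up (p : Fin k × Fin k) : Matrix (Fin k) (Fin k) (Pol I k) :=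
  (U p).map (C : ℂ →+* Pol I k)

variable [DecidableEq I]

lemma D_Lmat (i : I) (p : Fin k × Fin k) (l : I ⊕ I) :
    D (i, p) (Lmat B σ l) = if l = Sum.inr i then (C (σ i : ℂ) : Pol I k) • Up p else 0 := by
  refine Matrix.ext fun r s => ?_
  rcases l with i' | i'
  · simp [D, Lmat]
  · obtain ⟨p1, p2⟩ := p
    rcases eq_or_ne i' i with rfl | h
    · simp [D, Lmat, Gmat, Up, U, pderiv_X, Pi.single_apply, Prod.ext_iff, 
        mul_add, apply_ite (C : ℂ → Pol I k)]
    · simp [D, Lmat, Gmat, pderiv_X, Prod.ext_iff, h]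

omit [DecidableEq I] in
lemma D_one (a : I × Fin k × Fin k) : D a (1 : Matrix (Fin k) (Fin k) (Pol I k)) = 0 := by
  refine Matrix.ext fun r s => ?_
  simp only [D, Matrix.map_apply, Matrix.one_apply]
  split_ifs <;> simp

lemma sumA (i : I) : ∀ (w : List (I ⊕ I)) (M : Matrix (Fin k) (Fin k) (Pol I k)),
    ∑ p, trace (Up p * (M * D (i, p) (W B σ w))) = C (σ i : ℂ) *
      ((splits i w).map fun uv => trace (M * W B σ uv.1) * trace (W B σ uv.2)).sum := by
  intro w
  induction w with
  | nil => intro M; simp [W_nil, D_one, splits]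
  | cons l w ih =>
    intro M
    simp only [W_cons, D_mul, mul_add, trace_add, Finset.sum_add_distrib, D_Lmat, splits,
      List.map_append, List.sum_append, List.map_map]
    have e0 : ∀ p : Fin k × Fin k, M * (Lmat B σ l * D (i, p) (W B σ w))
        = M * Lmat B σ l * D (i, p) (W B σ w) := fun p => (mul_assoc _ _ _).symm
    simp only [e0]
    rw [ih]
    refine congrArg₂ (· + ·) ?_ ?_
    · split_ifs with h
      · simp only [Matrix.smul_mul, Matrix.mul_smul, trace_smul, smul_eq_mul, ← Finset.mul_sum,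
          ← mul_assoc, Up, trace_sandwich]
        simp [W_nil, mul_assoc]
      · simp
    · simp only [Function.comp_def, W_cons, mul_assoc]

lemma sumB (i : I) (P : Matrix (Fin k) (Fin k) (Pol I k)) :
    ∀ (w : List (I ⊕ I)) (M : Matrix (Fin k) (Fin k) (Pol I k)),
    ∑ p, trace (Up p * P) * trace (M * D (i, p) (W B σ w)) = C (σ i : ℂ) *
      ((splits i w).map fun uv => trace (P * (W B σ uv.2 * M * W B σ uv.1))).sum := by
  intro w
  induction w with
  | nil => intro M; simp [W_nil, D_one, splits]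
  | cons l w ih =>
    intro M
    simp only [W_cons, D_mul, mul_add, trace_add, Finset.sum_add_distrib, D_Lmat, splits,
      List.map_append, List.sum_append, List.map_map]
    have e0 : ∀ p : Fin k × Fin k, M * (Lmat B σ l * D (i, p) (W B σ w))
        = M * Lmat B σ l * D (i, p) (W B σ w) := fun p => (mul_assoc _ _ _).symm
    simp only [e0]
    rw [ih]
    refine congrArg₂ (· + ·) ?_ ?_
    · split_ifs with h
      · have e : ∀ p : Fin k × Fin k, trace (Up p * P) * trace (M * ((C (σ i : ℂ) : Pol I k) • Up p * W B σ w))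
            = C (σ i : ℂ) * (trace (Up p * P) * trace (Up p * (W B σ w * M))) := by
          intro p
          rw [Matrix.smul_mul, Matrix.mul_smul, trace_smul, smul_eq_mul, trace_mul_comm M,
            mul_assoc (Up p)]
          ring
        rw [Finset.sum_congr rfl fun p _ => e p, ← Finset.mul_sum]
        simp only [Up, trace_pair]
        simp [W_nil]
      · simp
    · simp only [Function.comp_def, W_cons, mul_assoc]

omit [DecidableEq I] in
lemma Gmat_eq (i : I) : Gmat i = ∑ p, (X (i, p) : Pol I k) • (Up p) := by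
  refine Matrix.ext fun r s => ?_
  simp [Gmat, Up, U, Matrix.sum_apply, apply_ite (C : ℂ → Pol I k),
    Finset.sum_add_distrib, ite_mul, add_mul, mul_comm (X _)]

omit [DecidableEq I] in
lemma TT_cons (w : List (I ⊕ I)) (ws : List (List (I ⊕ I))) :
    TT B σ (w :: ws) = T B σ w * TT B σ ws := by simp [TT]

lemma sum_pderiv_TT (i : I) (P : List (I ⊕ I)) : ∀ ws : List (List (I ⊕ I)),
    ∑ p, trace (Up p * W B σ P) * pderiv (i, p) (TT B σ ws)
      = C (σ i : ℂ) * ((dsplit i P ws).map (TT B σ)).sum := by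
  intro ws
  induction ws with
  | nil => simp [TT, dsplit]
  | cons w ws ih =>
    simp only [TT_cons, pderiv_mul, mul_add, Finset.sum_add_distrib, dsplit, List.map_append,
      List.sum_append, List.map_map, Function.comp_def]
    refine congrArg₂ (· + ·) ?_ ?_
    · rw [List.sum_map_mul_right]
      have e : ∀ p : Fin k × Fin k, trace (Up p * W B σ P) * (pderiv (i, p) (T B σ w) * TT B σ ws)
          = trace (Up p * W B σ P) * trace (1 * D (i, p) (W B σ w)) *
            (C ((k : ℂ)⁻¹) * TT B σ ws) := by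
        intro p
        rw [T, pderiv_mul, pderiv_C, pderiv_trace, one_mul]; ring
      rw [Finset.sum_congr rfl fun p _ => e p, ← Finset.sum_mul, sumB]
      simp only [mul_one, T, W_append, List.sum_map_mul_left, mul_assoc]
      ring
    · rw [List.sum_map_mul_left, ← mul_assoc, mul_comm (C _), mul_assoc, ← ih, Finset.mul_sum]
      exact Finset.sum_congr rfl fun p _ => by ring

variable [Fintype I]

/-- The Gaussian variance. -/
noncomputable def var (k : ℕ) : ℝ≥0 := (k : ℝ≥0)⁻¹

/-- Expected products of traces. -/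
noncomputable def Ev (ws : List (List (I ⊕ I))) : ℂ := Ex (var k) (TT B σ ws)

/-- The Schwinger-Dyson identity at finite dimension. -/
theorem Ev_step (hk : k ≠ 0) (i : I) (P : List (I ⊕ I)) (ws : List (List (I ⊕ I))) :
    Ev B σ ((Sum.inr i :: P) :: ws) = Ev B σ ((Sum.inl i :: P) :: ws) + (σ i : ℂ) ^ 2 *
      (((splits i P).map fun uv => Ev B σ (uv.1 :: uv.2 :: ws)).sum +
        ((k : ℂ) ^ 2)⁻¹ * ((dsplit i P ws).map (Ev B σ)).sum) := by
  have h1 : T B σ (Sum.inr i :: P) = T B σ (Sum.inl i :: P) + C ((k : ℂ)⁻¹ * (σ i : ℂ)) *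
      ∑ p, X (i, p) * trace (Up p * W B σ P) := by
    simp only [T, W_cons, Lmat, add_mul, trace_add, mul_add, Matrix.smul_mul, trace_smul,
      smul_eq_mul, Gmat_eq, Finset.sum_mul, trace_sum, map_mul, mul_assoc]
  have h2 : ∑ p, pderiv (i, p) (trace (Up p * W B σ P) * TT B σ ws)
      = C (σ i : ℂ) * (C ((k : ℂ) ^ 2) * ((splits i P).map fun uv =>
          TT B σ (uv.1 :: uv.2 :: ws)).sum + ((dsplit i P ws).map (TT B σ)).sum) := by
    have e : ∀ p : Fin k × Fin k, pderiv (i, p) (trace (Up p * W B σ P))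
        = trace (Up p * (1 * D (i, p) (W B σ P))) := by
      intro p
      rw [pderiv_trace, D_mul, one_mul]
      have : D (i, p) (Up p : Matrix (Fin k) (Fin k) (Pol I k)) = 0 := by
        refine Matrix.ext fun r s => ?_
        simp [D, Up]
      rw [this, zero_mul, zero_add]
    simp only [pderiv_mul, Finset.sum_add_distrib, e, ← Finset.sum_mul, sumA, sum_pderiv_TT]
    simp only [one_mul]
    rw [mul_add, mul_assoc, ← List.sum_map_mul_right]
    simp only [← List.sum_map_mul_left]
    congr 2
    refine List.map_congr_left fun uv _ => ?_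
    have hc : C ((k : ℂ) ^ 2) * (C ((k : ℂ)⁻¹) * C ((k : ℂ)⁻¹)) = (1 : Pol I k) := by
      rw [← map_mul, ← map_mul, ← map_one C]
      congr 1
      field_simp
    simp only [TT_cons, T]
    linear_combination (-(C (σ i : ℂ) * trace (W B σ uv.1) * trace (W B σ uv.2) * TT B σ ws)) * hc
  unfold Ev
  rw [TT_cons, h1, add_mul, Ex_add, ← TT_cons, mul_assoc, Ex_C_mul, Finset.sum_mul, Ex_sum]
  congr 1
  simp only [mul_assoc (X _), Ex_X_mul, ← Finset.mul_sum, ← Ex_sum, h2, Ex_C_mul, Ex_add,
    Ex_list_sum, List.map_map, Function.comp_def]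
  have hv : ((var k : ℝ) : ℂ) = (k : ℂ)⁻¹ := by simp [var]
  rw [hv]
  field_simp

end Vale.Agent.P087.Gauss
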